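import Crest.Agent.R001.FLCor
import Crest.Agent.Lib.Mertens

/-! R1, block FIN (B): upper bound sieve with two families of classes. -/

set_option autoImplicit false
open Finset
open Crest.Agent.R001.FL
open Crest.Agent.Lib

namespace Crest.Agent.R001.Fin

-- number of elements of an interval in given sets of classes mod the primes of `D`
-- and in one class mod `q`.
set_option maxHeartbeats 2000000 in
lemma count_classes (x : ℤ) (H : ℕ) (C : ℕ → Finset ℤ) (D : Finset ℕ) (hD : ∀ p ∈ D, p.Prime)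
    (hC : ∀ p ∈ D, ∀ c ∈ C p, ∀ c' ∈ C p, c ≡ c' [ZMOD p] → c = c') :
    ∀ (q : ℕ) (v : ℤ), 0 < q → (∀ p ∈ D, Nat.Coprime q p) →
    |(((Finset.Ioc x (x + H)).filter (fun a => a ≡ v [ZMOD q] ∧
        ∀ p ∈ D, ∃ c ∈ C p, a ≡ c [ZMOD p])).card : ℝ) -
      (H : ℝ) / q * ∏ p ∈ D, ((C p).card / (p : ℝ))| ≤ ∏ p ∈ D, ((C p).card : ℝ) := by
  classical
  induction D using Finset.induction_on with
  | empty =>
    intro q v hq _
    have h := card_class_Ioc x H q hq v
    simpa using h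
  | insert p D hp ih =>
    intro q v hq hcop
    have hpp := hD p (Finset.mem_insert_self p D)
    have ih' := ih (fun r hr => hD r (Finset.mem_insert_of_mem hr))
      (fun r hr => hC r (Finset.mem_insert_of_mem hr))
    have hqp : Nat.Coprime q p := hcop p (Finset.mem_insert_self p D)
    have hqp' : IsCoprime (q : ℤ) (p : ℤ) := Nat.isCoprime_iff_coprime.2 hqp
    obtain ⟨s, t, hst⟩ := hqp'
    -- combined class
    let w : ℤ → ℤ := fun c => v * (t * p) + c * (s * q)
    have hw : ∀ c a : ℤ, (a ≡ v [ZMOD q] ∧ a ≡ c [ZMOD p]) ↔ a ≡ w c [ZMOD ((q * p : ℕ) : ℤ)] := by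
      intro c a
      have k1 : w c ≡ v [ZMOD q] := by
        apply Int.ModEq.symm
        rw [Int.modEq_iff_dvd]
        refine ⟨s * (c - v), ?_⟩
        have : t * (p : ℤ) = 1 - s * q := by linarith
        simp only [w]
        rw [this]; ring
      have k2 : w c ≡ c [ZMOD p] := by
        apply Int.ModEq.symm
        rw [Int.modEq_iff_dvd]
        refine ⟨t * (v - c), ?_⟩
        have : s * (q : ℤ) = 1 - t * p := by linarith
        simp only [w]
        rw [this]; ring
      constructor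
      · rintro ⟨h1, h2⟩
        have h3 := h1.trans k1.symm
        have h4 := h2.trans k2.symm
        rw [Int.modEq_iff_dvd] at h3 h4 ⊢
        rw [Nat.cast_mul]
        exact IsCoprime.mul_dvd ⟨s, t, hst⟩ h3 h4
      · intro h
        rw [Nat.cast_mul] at h
        refine ⟨?_, ?_⟩
        · exact (Int.ModEq.of_mul_right _ h).trans k1
        · exact (Int.ModEq.of_mul_left _ h).trans k2
    have hset : (Finset.Ioc x (x + H)).filter (fun a => a ≡ v [ZMOD q] ∧
        ∀ r ∈ insert p D, ∃ c ∈ C r, a ≡ c [ZMOD r]) =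
        (C p).biUnion (fun c => (Finset.Ioc x (x + H)).filter
          (fun a => a ≡ w c [ZMOD ((q * p : ℕ) : ℤ)] ∧ ∀ r ∈ D, ∃ c ∈ C r, a ≡ c [ZMOD r])) := by
      ext a
      simp only [Finset.mem_filter, Finset.mem_biUnion]
      constructor
      · rintro ⟨h1, h2, h3⟩
        obtain ⟨c, hc, hac⟩ := h3 p (Finset.mem_insert_self p D)
        exact ⟨c, hc, h1, (hw c a).1 ⟨h2, hac⟩, fun r hr => h3 r (Finset.mem_insert_of_mem hr)⟩
      · rintro ⟨c, hc, h1, h2, h3⟩
        obtain ⟨h4, h5⟩ := (hw c a).2 h2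
        refine ⟨h1, h4, fun r hr => ?_⟩
        rcases Finset.mem_insert.1 hr with rfl | hr
        · exact ⟨c, hc, h5⟩
        · exact h3 r hr
    have hdisj : ∀ c ∈ C p, ∀ c' ∈ C p, c ≠ c' → Disjoint
        ((Finset.Ioc x (x + H)).filter (fun a => a ≡ w c [ZMOD ((q * p : ℕ) : ℤ)] ∧
          ∀ r ∈ D, ∃ c ∈ C r, a ≡ c [ZMOD r]))
        ((Finset.Ioc x (x + H)).filter (fun a => a ≡ w c' [ZMOD ((q * p : ℕ) : ℤ)] ∧
          ∀ r ∈ D, ∃ c ∈ C r, a ≡ c [ZMOD r])) := by
      intro c hc c' hc' hne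
      rw [Finset.disjoint_left]
      intro a ha ha'
      rw [Finset.mem_filter] at ha ha'
      have h1 := ((hw c a).2 ha.2.1).2
      have h2 := ((hw c' a).2 ha'.2.1).2
      exact hne (hC p (Finset.mem_insert_self p D) c hc c' hc' (h1.symm.trans h2))
    rw [hset, Finset.card_biUnion hdisj, Finset.prod_insert hp, Finset.prod_insert hp]
    push_cast
    have hp0 : (0 : ℝ) < p := by exact_mod_cast hpp.pos
    have hq0 : (0 : ℝ) < q := by exact_mod_cast hq
    have e1 : (H : ℝ) / q * ((C p).card / (p : ℝ) * ∏ r ∈ D, ((C r).card / (r : ℝ))) =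
        ∑ c ∈ C p, ((H : ℝ) / ((q * p : ℕ) : ℝ) * ∏ r ∈ D, ((C r).card / (r : ℝ))) := by
      rw [Finset.sum_const, nsmul_eq_mul, Nat.cast_mul]
      generalize ∏ r ∈ D, ((C r).card / (r : ℝ)) = PP
      generalize ((C p).card : ℝ) = cc
      rw [div_mul_eq_div_div]
      ring
    rw [e1, ← Finset.sum_sub_distrib]
    calc |∑ c ∈ C p, _| ≤ ∑ c ∈ C p, _ := Finset.abs_sum_le_sum_abs _ _
      _ ≤ ∑ c ∈ C p, ∏ r ∈ D, ((C r).card : ℝ) := by
          apply Finset.sum_le_sum
          intro c _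
          apply ih' (q * p) (w c) (Nat.mul_pos hq hpp.pos)
          intro r hr
          apply Nat.Coprime.mul_left (hcop r (Finset.mem_insert_of_mem hr))
          rw [Nat.coprime_primes hpp (hD r (Finset.mem_insert_of_mem hr))]
          rintro rfl
          exact hp hr
      _ = (C p).card * ∏ r ∈ D, ((C r).card : ℝ) := by
          rw [Finset.sum_const, nsmul_eq_mul]

/-- the two-class family -/
noncomputable def Cl (V w : ℕ) (r1 r2 : ℕ → ℤ) (p : ℕ) : Finset ℤ := by
  classical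
  exact (if p ∣ V then ∅ else {r1 p}) ∪
    (if p ≤ w ∧ (p ∣ V ∨ ¬ r1 p ≡ r2 p [ZMOD p]) then {r2 p} else ∅)

/-- the primes where the two classes differ -/
noncomputable def PD (V w : ℕ) (r1 r2 : ℕ → ℤ) : Finset ℕ := by
  classical
  exact (Finset.Icc 3 w).filter (fun p => p.Prime ∧ ¬ p ∣ V ∧ ¬ r1 p ≡ r2 p [ZMOD p])

set_option maxHeartbeats 4000000 in
theorem upper_two : ∃ (C : ℝ) (k : ℕ), 0 < C ∧ 1 ≤ k ∧ ∀ (w V H : ℕ), 2 ≤ w → 1 ≤ V → V ≤ w →
    w ^ k ≤ H → ∀ (x : ℤ) (r1 r2 : ℕ → ℤ) (A : Finset ℤ), A ⊆ Finset.Ioc x (x + H) →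
      (∀ j ∈ A, (∀ p : ℕ, p.Prime → 3 ≤ p → p ^ k ≤ H → ¬ p ∣ V → ¬ j ≡ r1 p [ZMOD p]) ∧
        (∀ p : ℕ, p.Prime → 3 ≤ p → p ≤ w → ¬ j ≡ r2 p [ZMOD p])) →
      (A.card : ℝ) ≤ C * (H / Real.log H) * ∏ p ∈ PD V w r1 r2, (1 - 1 / (p : ℝ)) := by
  classical
  obtain ⟨K, hK, hdim⟩ := dim_of 2 0 (1 / 3) (by norm_num) le_rfl (by norm_num)
  obtain ⟨s, hs, H0⟩ := sieve_weighted 2 K 1 (by norm_num) hK one_pos
  -- choice of k
  obtain ⟨e, he⟩ : ∃ e : ℕ, 2 * s + 2 + e ≤ 2 ^ e := by
    obtain ⟨n, hn⟩ := pow_unbounded_of_one_lt (2 * s + 2) (by norm_num : 1 < 2)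
    refine ⟨n + 2 * s + 2, ?_⟩
    have h1 : 2 ^ (n + 2 * s + 2) = 2 ^ n * (4 * 4 ^ s) := by
      rw [show n + 2 * s + 2 = n + (2 * s + 2) by ring, pow_add, pow_add, pow_mul]
      norm_num
      ring
    have h2 : s + 1 ≤ 4 ^ s := by
      have := Nat.lt_pow_self (n := s) (by norm_num : 1 < 4)
      omega
    have h3 : n < 2 ^ n := Nat.lt_pow_self (by norm_num)
    rw [h1]
    have h4 : 1 ≤ 2 ^ n := Nat.one_le_two_pow
    nlinarith
  set k : ℕ := 2 * s + 2 + e with hk
  have hk1 : 1 ≤ k := by omega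
  refine ⟨k * (2 * (Real.exp (22 / Real.log 2) * Real.log 2) + 1), k, by positivity, hk1,
    fun w V H hw hV hVw hwH x r1 r2 A hAI hA => ?_⟩
  have hH1 : 1 ≤ H := le_trans (Nat.one_le_pow _ _ (by omega)) hwH
  have hHr : (0 : ℝ) < H := by exact_mod_cast hH1
  set z : ℝ := (H : ℝ) ^ (1 / (k : ℝ)) with hz
  have hk0 : (0 : ℝ) < k := by exact_mod_cast hk1
  have hzk : z ^ k = H := by
    rw [hz, ← Real.rpow_natCast, ← Real.rpow_mul hHr.le]
    rw [one_div_mul_cancel hk0.ne', Real.rpow_one]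
  have hz0 : 0 ≤ z := Real.rpow_nonneg hHr.le _
  have hle : ∀ p : ℕ, (p : ℝ) ≤ z ↔ p ^ k ≤ H := by
    intro p
    rw [← pow_le_pow_iff_left₀ (Nat.cast_nonneg p) hz0 (by omega : k ≠ 0), hzk]
    exact_mod_cast Iff.rfl
  have hwz : (w : ℝ) ≤ z := (hle w).2 hwH
  have hz2 : 2 ≤ z := le_trans (by exact_mod_cast hw) hwz
  have hlz : 0 < Real.log z := Real.log_pos (by linarith)
  have hlogH : Real.log H = k * Real.log z := by
    rw [← hzk, Real.log_pow]
  set P : Finset ℕ := Mertens.pr 2 z with hP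
  have hmemP : ∀ p, p ∈ P ↔ (p.Prime ∧ 3 ≤ p ∧ (p : ℝ) ≤ z) := by
    intro p
    rw [hP, Mertens.mem_pr (by norm_num) hz0]
    constructor
    · rintro ⟨⟨h1, h2⟩, h3⟩
      refine ⟨h3, ?_, h2⟩
      have : 2 < p := by exact_mod_cast h1
      omega
    · rintro ⟨h1, h2, h3⟩
      refine ⟨⟨?_, h3⟩, h1⟩
      have : 2 < p := by omega
      exact_mod_cast this
  set C : ℕ → Finset ℤ := Cl V w r1 r2 with hC
  have hCval : ∀ p, C p = (if p ∣ V then ∅ else {r1 p}) ∪
      (if p ≤ w ∧ (p ∣ V ∨ ¬ r1 p ≡ r2 p [ZMOD p]) then {r2 p} else ∅) := by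
    intro p
    rw [hC, Cl]
  -- cardinality of C p
  have hcard : ∀ p ∈ P, (C p).card = if p ∈ PD V w r1 r2 then 2 else 1 := by
    intro p hp
    rw [hmemP] at hp
    rw [hCval]
    by_cases h1 : p ∣ V
    · have h2 : p ≤ w := (Nat.le_of_dvd hV h1).trans hVw
      have h3 : p ∉ PD V w r1 r2 := by
        simp [PD, h1]
      simp [h1, h2, h3]
    · by_cases h2 : p ≤ w
      · by_cases h3 : r1 p ≡ r2 p [ZMOD p]
        · have h4 : p ∉ PD V w r1 r2 := by
            simp [PD, h3]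
          simp [h1, h3, h4]
        · have h4 : p ∈ PD V w r1 r2 := by
            rw [PD, Finset.mem_filter, Finset.mem_Icc]
            exact ⟨⟨hp.2.1, h2⟩, hp.1, h1, h3⟩
          have h5 : r1 p ≠ r2 p := fun h => h3 (by rw [h])
          rw [if_neg h1, if_pos ⟨h2, Or.inr h3⟩, if_pos h4]
          rw [Finset.card_union_of_disjoint (by simpa using h5)]
          simp
      · have h4 : p ∉ PD V w r1 r2 := by
          rw [PD, Finset.mem_filter, Finset.mem_Icc]
          rintro ⟨⟨_, h⟩, _⟩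
          exact h2 h
        simp [h1, h2, h4]
  have hcard2 : ∀ p ∈ P, (C p).card ≤ 2 := by
    intro p hp
    rw [hcard p hp]
    split_ifs <;> norm_num
  have hdist : ∀ p ∈ P, ∀ c ∈ C p, ∀ c' ∈ C p, c ≡ c' [ZMOD p] → c = c' := by
    intro p hp c hc c' hc' hcc
    rw [hCval] at hc hc'
    rw [Finset.mem_union] at hc hc'
    have a1 : ∀ d, d ∈ (if p ∣ V then (∅ : Finset ℤ) else {r1 p}) → d = r1 p ∧ ¬ p ∣ V := by
      intro d hd
      split_ifs at hd with h
      · simp at hd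
      · exact ⟨by simpa using hd, h⟩
    have a2 : ∀ d, d ∈ (if p ≤ w ∧ (p ∣ V ∨ ¬ r1 p ≡ r2 p [ZMOD p]) then ({r2 p} : Finset ℤ)
        else ∅) → d = r2 p ∧ (p ∣ V ∨ ¬ r1 p ≡ r2 p [ZMOD p]) := by
      intro d hd
      split_ifs at hd with h
      · exact ⟨by simpa using hd, h.2⟩
      · simp at hd
    rcases hc with hc | hc <;> rcases hc' with hc' | hc'
    · rw [(a1 c hc).1, (a1 c' hc').1]
    · exfalso
      obtain ⟨e1, e2⟩ := a1 c hc
      obtain ⟨e3, e4⟩ := a2 c' hc'
      rw [e1, e3] at hcc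
      rcases e4 with e4 | e4
      · exact e2 e4
      · exact e4 hcc
    · exfalso
      obtain ⟨e1, e2⟩ := a1 c' hc'
      obtain ⟨e3, e4⟩ := a2 c hc
      rw [e1, e3] at hcc
      rcases e4 with e4 | e4
      · exact e2 e4
      · exact e4 hcc.symm
    · rw [(a2 c hc).1, (a2 c' hc').1]
  -- densities
  set g : ℕ → ℝ := fun p => (C p).card / (p : ℝ) with hg
  have hPp : ∀ p ∈ P, p.Prime := fun p hp => ((hmemP p).1 hp).1
  have hP3 : ∀ p ∈ P, (3 : ℝ) ≤ p := fun p hp => by exact_mod_cast ((hmemP p).1 hp).2.1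
  have hPz : ∀ p ∈ P, 2 ≤ p ∧ (p : ℝ) ≤ z := fun p hp =>
    ⟨(hPp p hp).two_le, ((hmemP p).1 hp).2.2⟩
  have hg0 : ∀ p ∈ P, 0 ≤ g p := fun p _ => div_nonneg (Nat.cast_nonneg _) (Nat.cast_nonneg _)
  have hg2 : ∀ p ∈ P, g p ≤ 2 / p := by
    intro p hp
    simp only [hg]
    have := hP3 p hp
    gcongr
    exact_mod_cast hcard2 p hp
  have hg23 : ∀ p ∈ P, g p ≤ 1 - 1 / 3 := by
    intro p hp
    refine (hg2 p hp).trans ?_
    have := hP3 p hp
    rw [div_le_iff₀ (by linarith)]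
    linarith
  have hdimP : Dim 2 K P g := hdim P g hPp hg0 hg23 (fun p hp => by
    have := hg2 p hp
    simpa using this)
  -- the sieve
  set Ω : Finset ℤ := Finset.Ioc x (x + H) with hΩ
  set T : ℤ → Finset ℕ := fun a => P.filter (fun p => ∃ c ∈ C p, a ≡ c [ZMOD p]) with hT
  obtain ⟨-, hup⟩ := H0 z hz2 P g hPz hg0 (fun p hp => lt_of_le_of_lt (hg23 p hp) (by norm_num))
    hdimP Ω (fun _ => 1) T H (fun D => ∏ p ∈ D, ((C p).card : ℝ)) (fun _ _ => zero_le_one)
    (fun a _ => Finset.filter_subset _ _) (Nat.cast_nonneg H) (by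
      intro D hDP _
      have h1 := count_classes x H C D (fun p hp => hPp p (hDP hp))
        (fun p hp => hdist p (hDP hp)) 1 0 one_pos (fun p _ => Nat.coprime_one_left p)
      have h2 : Ω.filter (fun a => D ⊆ T a) = (Finset.Ioc x (x + H)).filter
          (fun a => a ≡ 0 [ZMOD ((1 : ℕ) : ℤ)] ∧ ∀ p ∈ D, ∃ c ∈ C p, a ≡ c [ZMOD p]) := by
        apply Finset.filter_congr
        intro a _
        constructor
        · intro h
          refine ⟨by simp [Int.modEq_one], fun p hp => ?_⟩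
          have := h hp
          rw [hT, Finset.mem_filter] at this
          exact this.2
        · rintro ⟨_, h⟩ p hp
          rw [hT, Finset.mem_filter]
          exact ⟨hDP hp, h p hp⟩
      rw [h2, Finset.sum_const, nsmul_eq_mul, mul_one]
      have h3 : (∏ p ∈ D, g p) * (H : ℝ) = (H : ℝ) / ((1 : ℕ) : ℝ) *
          ∏ p ∈ D, ((C p).card / (p : ℝ)) := by
        simp only [hg]
        push_cast
        ring
      rw [h3]
      exact h1)
  -- A is contained in the sifted set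
  have hAsub : A ⊆ Ω.filter (fun a => T a = ∅) := by
    intro j hj
    rw [Finset.mem_filter]
    refine ⟨hAI hj, ?_⟩
    obtain ⟨h1, h2⟩ := hA j hj
    rw [hT, Finset.filter_eq_empty_iff]
    rintro p hp ⟨c, hc, hjc⟩
    have hpP := (hmemP p).1 hp
    rw [hCval, Finset.mem_union] at hc
    rcases hc with hc | hc
    · split_ifs at hc with h
      · simp at hc
      · rw [Finset.mem_singleton] at hc
        rw [hc] at hjc
        exact h1 p hpP.1 hpP.2.1 ((hle p).1 hpP.2.2) h hjc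
    · split_ifs at hc with h
      · rw [Finset.mem_singleton] at hc
        rw [hc] at hjc
        exact h2 p hpP.1 hpP.2.1 h.1 hjc
      · simp at hc
  have hAcard : (A.card : ℝ) ≤ ∑ a ∈ Ω.filter (fun a => T a = ∅), (1 : ℝ) := by
    rw [Finset.sum_const, nsmul_eq_mul, mul_one]
    exact_mod_cast Finset.card_le_card hAsub
  -- the Euler product
  have hPDP : PD V w r1 r2 ⊆ P := by
    intro p hp
    rw [PD, Finset.mem_filter, Finset.mem_Icc] at hp
    rw [hmemP]
    exact ⟨hp.2.1, hp.1.1, le_trans (by exact_mod_cast hp.1.2) hwz⟩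
  set E : ℝ := ∏ p ∈ PD V w r1 r2, (1 - 1 / (p : ℝ)) with hE
  have hfac : ∀ p ∈ P, 0 ≤ 1 - 1 / (p : ℝ) ∧ 1 - 1 / (p : ℝ) ≤ 1 := by
    intro p hp
    have h3 := hP3 p hp
    constructor
    · rw [sub_nonneg, div_le_one (by linarith)]; linarith
    · have : (0 : ℝ) ≤ 1 / p := by positivity
      linarith
  have hprod : ∏ p ∈ P, (1 - g p) ≤ (∏ p ∈ P, (1 - 1 / (p : ℝ))) * E := by
    have h1 : E = ∏ p ∈ P, (if p ∈ PD V w r1 r2 then (1 - 1 / (p : ℝ)) else 1) := by
      rw [hE, ← Finset.prod_filter]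
      apply Finset.prod_congr _ fun _ _ => rfl
      ext p
      rw [Finset.mem_filter]
      exact ⟨fun h => ⟨hPDP h, h⟩, fun h => h.2⟩
    rw [h1, ← Finset.prod_mul_distrib]
    apply Finset.prod_le_prod
    · intro p hp
      have := hg23 p hp
      linarith
    · intro p hp
      have h3 := hP3 p hp
      simp only [hg]
      rw [hcard p hp]
      split_ifs with h
      · push_cast
        have e1 : 2 / (p : ℝ) = 2 * (1 / p) := by ring
        rw [e1]
        nlinarith [sq_nonneg (1 / (p : ℝ))]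
      · push_cast
        linarith
  have hmert := (Mertens.mertens_three 2 z le_rfl hz2).2
  have hmert' : ∏ p ∈ P, (1 - 1 / (p : ℝ)) ≤
      Real.exp (22 / Real.log 2) * Real.log 2 * (k / Real.log H) := by
    refine hmert.trans (le_of_eq ?_)
    rw [hlogH, div_mul_eq_div_div, div_self hk0.ne']
    ring
  -- lower bound for E
  have hE0 : 1 / z ≤ E := prod_ge_inv _ (fun p hp => (hPp p (hPDP hp)).two_le) z hz2
    (fun p hp => ((hmemP p).1 (hPDP hp)).2.2)
  have hEnn : 0 ≤ E := le_trans (by positivity) hE0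
  -- error
  have herr : ∑ D ∈ P.powerset.filter (fun D : Finset ℕ => ∏ p ∈ D, (p : ℝ) ≤ z ^ s),
      ∏ p ∈ D, ((C p).card : ℝ) ≤ k * (H / Real.log H) * E := by
    have h1 : ∀ D ∈ P.powerset.filter (fun D : Finset ℕ => ∏ p ∈ D, (p : ℝ) ≤ z ^ s),
        ∏ p ∈ D, ((C p).card : ℝ) ≤ z ^ s := by
      intro D hD
      rw [Finset.mem_filter, Finset.mem_powerset] at hD
      refine le_trans ?_ hD.2
      apply Finset.prod_le_prod
      · intro p _
        exact Nat.cast_nonneg _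
      · intro p hp
        have := hP3 p (hD.1 hp)
        have h2 : ((C p).card : ℝ) ≤ 2 := by exact_mod_cast hcard2 p (hD.1 hp)
        linarith
    have h2 := Finset.sum_le_card_nsmul _ _ _ h1
    rw [nsmul_eq_mul] at h2
    have h3 := card_level P hPp (z ^ s) (by positivity)
    have h4 : ∑ D ∈ P.powerset.filter (fun D : Finset ℕ => ∏ p ∈ D, (p : ℝ) ≤ z ^ s),
      ∏ p ∈ D, ((C p).card : ℝ) ≤ z ^ s * z ^ s := by
      refine h2.trans ?_
      gcongr
    refine h4.trans ?_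
    -- z^(2s) <= k * H / log H / z
    have h5 : z ^ s * z ^ s * (z * (k * Real.log z)) ≤ k * z ^ k := by
      have h6 : z ^ k = z ^ s * z ^ s * (z * z) * z ^ e := by
        rw [hk]
        ring
      rw [h6]
      have h7 : Real.log z ≤ z := by
        have := Real.log_le_sub_one_of_pos (by linarith : (0 : ℝ) < z)
        linarith
      have h8 : 1 ≤ z ^ e := one_le_pow₀ (by linarith)
      have h9 : 0 ≤ z ^ s * z ^ s := by positivity
      have h10 : z * (k * Real.log z) ≤ k * (z * z * z ^ e) := by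
        have : z * (k * Real.log z) ≤ k * (z * z) := by
          have := mul_le_mul_of_nonneg_left h7 (by positivity : 0 ≤ z * (k : ℝ))
          nlinarith
        refine this.trans ?_
        have : z * z ≤ z * z * z ^ e := by
          have : 0 ≤ z * z := by positivity
          nlinarith
        gcongr
      calc z ^ s * z ^ s * (z * (k * Real.log z)) ≤ z ^ s * z ^ s * (k * (z * z * z ^ e)) := by
            gcongr
        _ = k * (z ^ s * z ^ s * (z * z) * z ^ e) := by ring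
    have h11 : z ^ s * z ^ s ≤ k * (H / Real.log H) * (1 / z) := by
      rw [hlogH, ← hzk, mul_one_div, le_div_iff₀ (by linarith), ← mul_div_assoc,
        le_div_iff₀ (by positivity)]
      calc z ^ s * z ^ s * z * (k * Real.log z) = z ^ s * z ^ s * (z * (k * Real.log z)) := by ring
        _ ≤ _ := h5
    refine h11.trans ?_
    have h12 : 0 ≤ k * ((H : ℝ) / Real.log H) := by
      have : 0 ≤ Real.log H := by rw [hlogH]; positivity
      positivity
    exact mul_le_mul_of_nonneg_left hE0 h12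
  have hfin : (A.card : ℝ) ≤ (1 + 1) * (∏ p ∈ P, (1 - g p)) * H + k * (H / Real.log H) * E :=
    hAcard.trans (hup.trans (by linarith))
  refine hfin.trans ?_
  have h20 : (1 + 1) * (∏ p ∈ P, (1 - g p)) * (H : ℝ) ≤
      2 * (Real.exp (22 / Real.log 2) * Real.log 2 * (k / Real.log H) * E) * H := by
    have : ∏ p ∈ P, (1 - g p) ≤ Real.exp (22 / Real.log 2) * Real.log 2 * (k / Real.log H) * E :=
      hprod.trans (mul_le_mul_of_nonneg_right hmert' hEnn)
    nlinarith
  calc (1 + 1) * (∏ p ∈ P, (1 - g p)) * (H : ℝ) + k * (H / Real.log H) * E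
      ≤ 2 * (Real.exp (22 / Real.log 2) * Real.log 2 * (k / Real.log H) * E) * H +
        k * (H / Real.log H) * E := by linarith
    _ = k * (2 * (Real.exp (22 / Real.log 2) * Real.log 2) + 1) * (H / Real.log H) * E := by
      ring

end Crest.Agent.R001.Fin
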