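import Mathlib

/-! R1, block FIN: primes in short intervals in arithmetic progressions from Siegel-Walfisz
(used as the hypothesis `PsiAP`). -/

set_option autoImplicit false
open Finset Filter Topology

namespace Crest.Agent.R001.Fin

/-- Siegel-Walfisz, `ψ(x; q, b)` form, saving `(log x)^A`, moduli up to `(log x)^B`. -/
def PsiAP : Prop := ∀ A B : ℝ, ∃ C : ℝ, ∀ x : ℝ, 2 ≤ x → ∀ q : ℕ, 1 ≤ q →
  (q : ℝ) ≤ (Real.log x) ^ B → ∀ b : ℕ, Nat.Coprime b q →
    |∑ n ∈ (Finset.Ioc 0 ⌊x⌋₊).filter (fun n => n ≡ b [MOD q]), ArithmeticFunction.vonMangoldt n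
      - x / (Nat.totient q : ℝ)| ≤ C * x / (Real.log x) ^ A

/-- powers of log are eventually smaller than powers of `x` -/
lemma ev_log_pow (c : ℝ) (k : ℝ) (hc : 0 < c) {e : ℝ} (he : 0 < e) :
    ∀ᶠ x : ℝ in atTop, c * (Real.log x) ^ k ≤ x ^ e := by
  have h := (isLittleO_log_rpow_rpow_atTop k he).bound (inv_pos.2 hc)
  filter_upwards [h, eventually_ge_atTop 1] with x hx h1
  rw [Real.norm_of_nonneg (Real.rpow_nonneg (Real.log_nonneg h1) _),
    Real.norm_of_nonneg (Real.rpow_nonneg (by linarith) _)] at hx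
  calc c * (Real.log x) ^ k ≤ c * (c⁻¹ * x ^ e) := by gcongr
    _ = x ^ e := by field_simp

set_option maxHeartbeats 1000000 in
theorem primes_interval (h : PsiAP) (B : ℝ) : ∃ x0 : ℕ, ∀ x y q b : ℕ, x0 ≤ x →
    (x : ℝ) / (Real.log x) ^ B ≤ y → y ≤ x → 1 ≤ q → (q : ℝ) ≤ (Real.log x) ^ B →
    Nat.Coprime b q →
    (1 / 4 : ℝ) * (y / (Nat.totient q * Real.log x)) ≤
      ((Finset.Ioc x (x + y)).filter (fun p => p.Prime ∧ p ≡ b [MOD q])).card := by
  -- enlarge B to be nonnegative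
  set B' : ℝ := max B 0 with hB'
  obtain ⟨C, hC⟩ := h (2 * B' + 1) B'
  set C1 : ℝ := max C 1 with hC1
  have hC1pos : 0 < C1 := lt_of_lt_of_le one_pos (le_max_right _ _)
  have ev1 := ev_log_pow 64 (2 * B' + 1) (by norm_num) (e := 1 / 2) (by norm_num)
  have ev2 : ∀ᶠ x : ℝ in atTop, 12 * C1 ≤ Real.log x :=
    Real.tendsto_log_atTop.eventually_ge_atTop _
  have ev := ((ev1.and ev2).and (eventually_ge_atTop (3 : ℝ)))
  obtain ⟨X0, hX0⟩ := eventually_atTop.1 ev
  refine ⟨⌈X0⌉₊, fun x y q b hx hyl hyx hq hqB hcop => ?_⟩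
  have hxr : X0 ≤ (x : ℝ) := (Nat.le_ceil X0).trans (by exact_mod_cast hx)
  obtain ⟨⟨e1, e2⟩, e3⟩ := hX0 x hxr
  have hxpos : (0 : ℝ) < x := by linarith
  set l : ℝ := Real.log x with hl
  have hl1 : 1 ≤ l := by
    have : (1 : ℝ) ≤ 12 * C1 := by
      have : (1 : ℝ) ≤ C1 := le_max_right _ _
      linarith
    linarith
  have hl0 : 0 < l := by linarith
  have hB'0 : 0 ≤ B' := le_max_right _ _
  have hlB : l ^ B ≤ l ^ B' := Real.rpow_le_rpow_of_exponent_le hl1 (le_max_left _ _)
  have hlB0 : 0 < l ^ B := Real.rpow_pos_of_pos hl0 _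
  have hlB'0 : 0 < l ^ B' := Real.rpow_pos_of_pos hl0 _
  have hq0 : (0 : ℝ) < q := by exact_mod_cast hq
  have hphi0 : (0 : ℝ) < Nat.totient q := by exact_mod_cast Nat.totient_pos.2 hq
  have hphiq : (Nat.totient q : ℝ) ≤ q := by exact_mod_cast Nat.totient_le q
  have hphi : (Nat.totient q : ℝ) ≤ l ^ B' := (hphiq.trans hqB).trans hlB
  -- main lower bound  y / phi >= x / l^(2B')
  have hyphi : (x : ℝ) / l ^ (2 * B') ≤ y / Nat.totient q := by
    have h1 : (x : ℝ) / l ^ B' ≤ y := by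
      refine le_trans ?_ hyl
      exact div_le_div_of_nonneg_left hxpos.le hlB0 hlB
    have h2 : l ^ (2 * B') = l ^ B' * l ^ B' := by
      rw [← Real.rpow_add hl0]
      congr 1
      ring
    rw [h2, ← div_div]
    exact div_le_div₀ (Nat.cast_nonneg y) h1 hphi0 hphi
  set T : ℝ := (y : ℝ) / Nat.totient q with hT
  -- Siegel-Walfisz at x and x + y
  have hxy_le : ((x + y : ℕ) : ℝ) ≤ 2 * x := by
    have : ((x + y : ℕ) : ℝ) = x + y := by push_cast; ring
    have hy' : (y : ℝ) ≤ x := by exact_mod_cast hyx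
    linarith
  have hx_le : (x : ℝ) ≤ ((x + y : ℕ) : ℝ) := by
    push_cast
    linarith [Nat.cast_nonneg (α := ℝ) y]
  have hlog_le : l ≤ Real.log ((x + y : ℕ) : ℝ) := Real.log_le_log hxpos hx_le
  have hlog2 : Real.log ((x + y : ℕ) : ℝ) ≤ 2 * l := by
    have h1 : Real.log ((x + y : ℕ) : ℝ) ≤ Real.log (x * x) := by
      apply Real.log_le_log (by linarith)
      nlinarith
    rw [Real.log_mul hxpos.ne' hxpos.ne'] at h1
    linarith
  have s1 := hC x (by linarith) q hq (hqB.trans hlB) b hcop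
  have s2 := hC ((x + y : ℕ) : ℝ) (by linarith) q hq
    ((hqB.trans hlB).trans (Real.rpow_le_rpow hl0.le hlog_le hB'0)) b hcop
  rw [Nat.floor_natCast] at s1 s2
  have hk0 : 0 ≤ 2 * B' + 1 := by linarith
  have hlk : 0 < l ^ (2 * B' + 1) := Real.rpow_pos_of_pos hl0 _
  have s1' : C * (x : ℝ) / l ^ (2 * B' + 1) ≤ C1 * x / l ^ (2 * B' + 1) := by
    gcongr
    exact le_max_left _ _
  have s2' : C * ((x + y : ℕ) : ℝ) / (Real.log ((x + y : ℕ) : ℝ)) ^ (2 * B' + 1) ≤
      C1 * (2 * x) / l ^ (2 * B' + 1) := by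
    have h1 : C * ((x + y : ℕ) : ℝ) ≤ C1 * (2 * x) := by
      calc C * ((x + y : ℕ) : ℝ) ≤ C1 * ((x + y : ℕ) : ℝ) := by
            gcongr
            exact le_max_left _ _
        _ ≤ C1 * (2 * x) := by gcongr
    have h2 : l ^ (2 * B' + 1) ≤ (Real.log ((x + y : ℕ) : ℝ)) ^ (2 * B' + 1) :=
      Real.rpow_le_rpow hl0.le hlog_le hk0
    exact div_le_div₀ (by positivity) h1 hlk h2
  have herr : C1 * x / l ^ (2 * B' + 1) + C1 * (2 * x) / l ^ (2 * B' + 1) ≤ T / 4 := by
    have h1 : C1 * x / l ^ (2 * B' + 1) + C1 * (2 * x) / l ^ (2 * B' + 1) =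
        (3 * C1 / l) * (x / l ^ (2 * B')) := by
      rw [Real.rpow_add hl0, Real.rpow_one]
      field_simp
      ring
    rw [h1]
    have h2 : 3 * C1 / l ≤ 1 / 4 := by
      rw [div_le_div_iff₀ hl0 (by norm_num)]
      linarith
    have h3 : 0 ≤ (x : ℝ) / l ^ (2 * B') := by positivity
    nlinarith
  -- difference of the two sums
  have hsplit : ∑ n ∈ (Finset.Ioc 0 (x + y)).filter (fun n => n ≡ b [MOD q]),
        ArithmeticFunction.vonMangoldt n =
      ∑ n ∈ (Finset.Ioc 0 x).filter (fun n => n ≡ b [MOD q]), ArithmeticFunction.vonMangoldt n +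
      ∑ n ∈ (Finset.Ioc x (x + y)).filter (fun n => n ≡ b [MOD q]),
        ArithmeticFunction.vonMangoldt n := by
    have hu : Finset.Ioc 0 (x + y) = Finset.Ioc 0 x ∪ Finset.Ioc x (x + y) := by
      ext n
      simp only [Finset.mem_union, Finset.mem_Ioc]
      omega
    rw [hu, Finset.filter_union, Finset.sum_union]
    apply Finset.disjoint_filter_filter
    rw [Finset.disjoint_left]
    intro n hn hn'
    simp only [Finset.mem_Ioc] at hn hn'
    omega
  set Sg : ℝ := ∑ n ∈ (Finset.Ioc x (x + y)).filter (fun n => n ≡ b [MOD q]),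
        ArithmeticFunction.vonMangoldt n with hSg
  have hlow : 3 / 4 * T ≤ Sg := by
    rw [abs_le] at s1 s2
    have e4 : ((x + y : ℕ) : ℝ) / (Nat.totient q : ℝ) = x / Nat.totient q + T := by
      rw [hT]
      push_cast
      ring
    linarith [s1.1, s1.2, s2.1, s2.2]
  -- upper bound of Sg
  set P := (Finset.Ioc x (x + y)).filter (fun p => p.Prime ∧ p ≡ b [MOD q]) with hP
  have hup : Sg ≤ P.card * (2 * l) + 4 * Real.sqrt ((x + y : ℕ) : ℝ) * l := by
    have h1 : Sg = ∑ n ∈ ((Finset.Ioc x (x + y)).filter (fun n => n ≡ b [MOD q])).filter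
          (fun n => n.Prime), ArithmeticFunction.vonMangoldt n +
        ∑ n ∈ ((Finset.Ioc x (x + y)).filter (fun n => n ≡ b [MOD q])).filter
          (fun n => ¬ n.Prime), ArithmeticFunction.vonMangoldt n :=
      (Finset.sum_filter_add_sum_filter_not _ _ _).symm
    have h2 : ∑ n ∈ ((Finset.Ioc x (x + y)).filter (fun n => n ≡ b [MOD q])).filter
          (fun n => n.Prime), ArithmeticFunction.vonMangoldt n ≤ P.card * (2 * l) := by
      have h3 : ((Finset.Ioc x (x + y)).filter (fun n => n ≡ b [MOD q])).filter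
          (fun n => n.Prime) = P := by
        rw [hP, Finset.filter_filter]
        apply Finset.filter_congr
        intro n _
        exact and_comm
      rw [h3]
      have h4 : ∀ n ∈ P, ArithmeticFunction.vonMangoldt n ≤ 2 * l := by
        intro n hn
        rw [hP, Finset.mem_filter, Finset.mem_Ioc] at hn
        calc ArithmeticFunction.vonMangoldt n ≤ Real.log n :=
              ArithmeticFunction.vonMangoldt_le_log
          _ ≤ Real.log ((x + y : ℕ) : ℝ) := by
              apply Real.log_le_log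
              · have : 0 < n := by omega
                exact_mod_cast this
              · exact_mod_cast hn.1.2
          _ ≤ 2 * l := hlog2
      have := Finset.sum_le_card_nsmul P _ _ h4
      simpa [nsmul_eq_mul] using this
    have h5 : ∑ n ∈ ((Finset.Ioc x (x + y)).filter (fun n => n ≡ b [MOD q])).filter
          (fun n => ¬ n.Prime), ArithmeticFunction.vonMangoldt n ≤
        4 * Real.sqrt ((x + y : ℕ) : ℝ) * l := by
      have h6 : ∑ n ∈ ((Finset.Ioc x (x + y)).filter (fun n => n ≡ b [MOD q])).filter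
          (fun n => ¬ n.Prime), ArithmeticFunction.vonMangoldt n ≤
          ∑ n ∈ (Finset.Ioc 0 ⌊((x + y : ℕ) : ℝ)⌋₊).filter (fun n => ¬ n.Prime),
            ArithmeticFunction.vonMangoldt n := by
        apply Finset.sum_le_sum_of_subset_of_nonneg
        · intro n hn
          rw [Nat.floor_natCast]
          simp only [Finset.mem_filter, Finset.mem_Ioc] at hn ⊢
          refine ⟨⟨by omega, hn.1.1.2⟩, hn.2⟩
        · intro n _ _
          exact ArithmeticFunction.vonMangoldt_nonneg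
      rw [← Chebyshev.psi_sub_theta_eq_sum_not_prime] at h6
      have h7 := Chebyshev.psi_sub_theta_le (x := ((x + y : ℕ) : ℝ)) (by linarith)
      refine h6.trans (h7.trans ?_)
      have h8 : 0 ≤ Real.sqrt ((x + y : ℕ) : ℝ) := Real.sqrt_nonneg _
      nlinarith
    linarith
  have hsq : 4 * Real.sqrt ((x + y : ℕ) : ℝ) * l ≤ T / 4 := by
    have h1 : Real.sqrt ((x + y : ℕ) : ℝ) ≤ 2 * Real.sqrt x := by
      have : Real.sqrt ((x + y : ℕ) : ℝ) ≤ Real.sqrt (2 ^ 2 * x) := by
        apply Real.sqrt_le_sqrt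
        linarith
      rwa [Real.sqrt_mul (by norm_num), Real.sqrt_sq (by norm_num)] at this
    have h2 : 8 * Real.sqrt x * l * 4 ≤ x / l ^ (2 * B') / 2 * 1 := by
      rw [← Real.sqrt_eq_rpow] at e1
      have h3 : l ^ (2 * B' + 1) = l ^ (2 * B') * l := by rw [Real.rpow_add hl0, Real.rpow_one]
      rw [h3] at e1
      have h4 : 0 < l ^ (2 * B') := Real.rpow_pos_of_pos hl0 _
      rw [mul_one, div_div, le_div_iff₀ (by positivity)]
      have h5 : Real.sqrt x * Real.sqrt x = x := Real.mul_self_sqrt hxpos.le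
      have h6 : 0 ≤ Real.sqrt x := Real.sqrt_nonneg _
      nlinarith
    have h7 : 0 ≤ (x : ℝ) / l ^ (2 * B') := by positivity
    nlinarith
  have hfin : T / 2 ≤ P.card * (2 * l) := by linarith
  have : (1 / 4 : ℝ) * (y / (Nat.totient q * l)) = T / 2 / (2 * l) := by
    rw [hT]
    field_simp
    ring
  rw [this, div_le_iff₀ (by positivity)]
  exact hfin

end Crest.Agent.R001.Fin
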